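import Vale.Agent.P165.Defs
import Vale.Agent.P165.PowerDefs

open MeasureTheory ProbabilityTheory
open scoped ENNReal

namespace Vale.Agent.P165

universe u

variable {V : Type u}

/-- The two-point function `T_p(x, y) = P_p(x ↔ y)` of Bernoulli bond percolation on `G`. -/
noncomputable def twoPoint (G : SimpleGraph V) (p : unitInterval) (x y : V) : ℝ≥0∞ :=
  setBernoulli G.edgeSet p {ω | (SimpleGraph.fromEdgeSet ω).Reachable x y}

/-- `‖T_p‖ ≤ M` as an operator on `ℓ²(V)`: the bilinear form of the matrix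
`T_p(x, y) = P_p(x ↔ y)` on finitely supported functions is bounded by `M ‖f‖₂ ‖g‖₂`. -/
def NormTwoLe (G : SimpleGraph V) (p : unitInterval) (M : ℝ) : Prop :=
  ∀ (F : Finset V) (f g : V → ℝ),
    |∑ x ∈ F, ∑ y ∈ F, f x * g y * (twoPoint G p x y).toReal| ≤
      M * (√(∑ x ∈ F, f x ^ 2) * √(∑ y ∈ F, g y ^ 2))

/-- The `L²` boundedness threshold `p_{2→2}(G)`: the supremum of the `p` for which `T_p` is a
bounded operator on `ℓ²(V)`. -/
noncomputable def pTwoTwo (G : SimpleGraph V) : ℝ :=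
  sSup {p : ℝ | ∃ h : p ∈ Set.Icc (0 : ℝ) 1, ∃ M : ℝ, NormTwoLe G ⟨p, h⟩ M}

/-- The triangle diagram `∑_{y,z} P_p(x ↔ y) P_p(y ↔ z) P_p(z ↔ x)`. -/
noncomputable def triangle (G : SimpleGraph V) (p : unitInterval) (x : V) : ℝ≥0∞ :=
  ∑' y, ∑' z, twoPoint G p x y * twoPoint G p y z * twoPoint G p z x

/-- The susceptibility `E_p |K_x|`: the expected number of vertices of the open cluster of `x`. -/
noncomputable def susceptibility (G : SimpleGraph V) (p : unitInterval) (x : V) : ℝ≥0∞ :=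
  ∫⁻ ω, (({y | (SimpleGraph.fromEdgeSet ω).Reachable x y}.encard : ℕ∞) : ℝ≥0∞)
    ∂(setBernoulli G.edgeSet p)

end Vale.Agent.P165
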