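import Vale.Agent.P165.Bdl.B3
import Vale.Agent.P165.H794.Defs

/-!
# `p_c < p_{2→2}` on nonamenable quasi-transitive graphs

The argument for `p_c < p_u`, with the threshold `p_u` replaced by any upper bound `P` of the
parameters at which the two-point operator is bounded on `ℓ²`.
-/

open Finset MeasureTheory ProbabilityTheory

set_option linter.unusedSectionVars false

namespace Vale.Agent.P165.H794

open Vale.Agent.P151 (Ex Cn cl csz edgesIn EV con tau)
open Vale.Agent.P165.LF Vale.Agent.P165.BS Vale.Agent.P165.BS2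

variable {V : Type} [DecidableEq V] {G : SimpleGraph V}

theorem pc_lt_of_bounds [G.LocallyFinite] [Infinite V] (hG : G.Connected)
    (hqt : IsQuasiTransitive G) {P : ℝ}
    (hP : ∀ p N : ℝ, 0 ≤ p → p ≤ 1 → L2B G p N → p ≤ P)
    (h : 0 < pc G → (∀ K : ℝ, ∃ q0 : ℝ, 0 < q0 ∧ q0 < pc G ∧ ∀ q, q0 ≤ q → q < pc G →
        K ≤ chi G q) → ∃ p2 C c : ℝ, 0 < p2 ∧ p2 < pc G ∧ 0 ≤ C ∧ 0 < c ∧
      (∀ q, p2 ≤ q → q < pc G → L2B G q (C * chi G q ^ (5 / 8 : ℝ))) ∧
      ∀ q q', p2 ≤ q → q ≤ q' → q' < pc G →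
        chi G q + (q' - q) / (1 - q) * ((c * chi G q ^ (3 / 4 : ℝ) - 1) * chi G q) ≤ chi G q') :
    pc G < P := by
  by_contra hcon
  rw [not_lt] at hcon
  obtain ⟨d, hd1, hd⟩ := LF.exists_degree_bound (G := G) hqt
  have hd0 : (0 : ℝ) < d := by exact_mod_cast hd1
  have hd1' : (1 : ℝ) ≤ d := by exact_mod_cast hd1
  have hpc1 := pc_le_one (G := G) hG
  -- extension of a bound
  have hext : ∀ q N : ℝ, 0 ≤ q → q < 1 → 1 ≤ N → L2B G q N →
      q + (1 - q) / (2 * d * N) ≤ pc G := by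
    intro q N h0 h1 hN hL
    have hp : 0 < 2 * d * N := by positivity
    have hp2 : 1 ≤ 2 * d * N := by nlinarith only [hd1', hN]
    have hx : 0 ≤ (1 - q) / (2 * d * N) := div_nonneg (by linarith only [h1]) hp.le
    have hx1 : (1 - q) / (2 * d * N) ≤ 1 - q := div_le_self (by linarith only [h1]) hp2
    refine le_trans ?_ hcon
    refine hP _ (2 * N) (by linarith only [h0, hx]) (by linarith only [hx1])
      (hL.extend hd h0 (by linarith only [hx]) h1 (by linarith only [hx1]) ?_)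
    rw [add_sub_cancel_left, div_div, mul_assoc]
    have h1q : 0 < 1 - q := by linarith only [h1]
    rw [div_mul_eq_mul_div, div_le_div_iff₀ (by positivity) (by norm_num)]
    nlinarith only []
  -- `p_c > 0`
  have hpc0 : 0 < pc G := by
    have h1 := hext 0 1 le_rfl one_pos le_rfl L2B_zero
    have h2 : 0 < (1 - (0 : ℝ)) / (2 * d * 1) := by (clear * - hd1; positivity)
    linarith only [h1, h2]
  have hsub : ∀ q, 0 < q → q < pc G → Sub G q := fun q h0 hq =>
    sub_of_lt_pc hG hqt h0.le hq (hq.le.trans hpc1)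
  have hne : Nonempty V := hG.nonempty
  have hX1 : ∀ q, 0 < q → q < pc G → 1 ≤ chi G q := fun q h0 hq =>
    one_le_chi h0.le (hq.le.trans hpc1) (hsub q h0 hq)
  have hXm : ∀ q q', 0 < q → q ≤ q' → q' < pc G → chi G q ≤ chi G q' := fun q q' h0 hqq hq' =>
    chi_mono h0.le hqq (hq'.le.trans hpc1) (hsub q' (h0.trans_le hqq) hq')
  -- `χ → ∞`
  have hinf : ∀ K : ℝ, ∃ q0 : ℝ, 0 < q0 ∧ q0 < pc G ∧ ∀ q, q0 ≤ q → q < pc G →
      K ≤ chi G q := by
    intro K
    rcases lt_or_eq_of_le hpc1 with hlt | heq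
    · set K1 := max 1 K with hK1
      have hK11 : 1 ≤ K1 := le_max_left _ _
      have hK1p : 0 < K1 := by linarith only [hK11]
      set δ := (1 - pc G) / (2 * d * K1) with hδ
      have h1pc : 0 < 1 - pc G := by linarith only [hlt]
      have hδ0 : 0 < δ := by positivity
      refine ⟨max (pc G / 2) (pc G - δ / 2), lt_of_lt_of_le (by linarith only [hpc0]) (le_max_left _ _),
        max_lt (by linarith only [hpc0]) (by linarith only [hδ0]), fun q hq hqc => ?_⟩
      have hq0 : 0 < q := lt_of_lt_of_le (by linarith only [hpc0]) ((le_max_left _ _).trans hq)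
      have hq1 : q < 1 := hqc.trans hlt
      by_contra hno
      rw [not_le] at hno
      have hX := hX1 q hq0 hqc
      have h1 := hext q (chi G q) hq0.le hq1 hX
        (L2B_chi hq0.le hq1.le (hsub q hq0 hqc))
      have h2 : δ ≤ (1 - q) / (2 * d * chi G q) := by
        rw [hδ]
        have h3 : chi G q ≤ K1 := hno.le.trans (le_max_right _ _)
        exact div_le_div₀ (by linarith only [hlt, hqc]) (by linarith only [hqc]) (by (clear * - hd1 hX; positivity))
          (mul_le_mul_of_nonneg_left h3 (by positivity))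
      have h3 := (le_max_right (pc G / 2) (pc G - δ / 2)).trans hq
      linarith only [hqc, h1, h2, h3]
    · obtain ⟨a, ha0, ha1, hKa⟩ := mg_chi_unbounded hG (fun q h0 hq => hsub q h0 (heq ▸ hq)) K
      exact ⟨a, ha0, heq ▸ ha1, fun q hq hqc => hKa.trans (hXm a q ha0 hq hqc)⟩
  obtain ⟨p2, C, c, hp20, hp2c, hC0, hc, hL, hgr⟩ := h hpc0 hinf
  have hp21 : p2 < 1 := hp2c.trans_le hpc1
  set C1 := max 1 C with hC1
  have hC11 : 1 ≤ C1 := le_max_left _ _
  have hC1p : 0 < C1 := by linarith only [hC11]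
  have hL1 : ∀ q, p2 ≤ q → q < pc G → L2B G q (C1 * chi G q ^ (5 / 8 : ℝ)) := by
    intro q hq hqc
    refine (hL q hq hqc).mg_mono_N (mul_le_mul_of_nonneg_right (le_max_right _ _) ?_)
    exact Real.rpow_nonneg (by linarith only [hX1 q (hp20.trans_le hq) hqc]) _
  have hN1 : ∀ q, p2 ≤ q → q < pc G → 1 ≤ C1 * chi G q ^ (5 / 8 : ℝ) := by
    intro q hq hqc
    have h1 : 1 ≤ chi G q ^ (5 / 8 : ℝ) :=
      Real.one_le_rpow (hX1 q (hp20.trans_le hq) hqc) (by norm_num)
    nlinarith only [hC11, h1]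
  -- a point beyond which `χ` is large
  obtain ⟨a0, ha00, ha0c, hKa0⟩ := hinf ((2 / c) ^ (4 / 3 : ℝ))
  set a := max p2 a0 with ha
  have hac : a < pc G := max_lt hp2c ha0c
  have hp2a : p2 ≤ a := le_max_left _ _
  have hgrow : ∀ q q', a ≤ q → q ≤ q' → q' < pc G →
      chi G q + c / 2 * ((q' - q) / (1 - q)) * chi G q ^ (7 / 4 : ℝ) ≤ chi G q' := by
    intro q q' hq hqq hq'
    have hq0 : 0 < q := hp20.trans_le (hp2a.trans hq)
    have hqc : q < pc G := hqq.trans_lt hq'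
    have hq1 : q < 1 := hqc.trans_le hpc1
    set X := chi G q with hX
    have hX0 : 0 < X := by linarith only [hX1 q hq0 hqc]
    have hXK : (2 / c) ^ (4 / 3 : ℝ) ≤ X := hKa0 q ((le_max_right _ _).trans hq) hqc
    have h2c : (0 : ℝ) ≤ 2 / c := by positivity
    have h34 : 2 / c ≤ X ^ (3 / 4 : ℝ) := by
      have h5 := Real.rpow_le_rpow (Real.rpow_nonneg h2c _) hXK
        (show (0 : ℝ) ≤ 3 / 4 by norm_num)
      rw [← Real.rpow_mul h2c] at h5
      norm_num at h5
      exact h5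
    have h35 : 1 ≤ c / 2 * X ^ (3 / 4 : ℝ) := by
      rw [div_le_iff₀ hc] at h34
      linarith only [h34]
    have e2 : X ^ (7 / 4 : ℝ) = X ^ (3 / 4 : ℝ) * X := by
      rw [show (7 / 4 : ℝ) = 3 / 4 + 1 by norm_num, Real.rpow_add hX0, Real.rpow_one]
    refine le_trans ?_ (hgr q q' (hp2a.trans hq) hqq hq')
    have hs0 : 0 ≤ (q' - q) / (1 - q) := div_nonneg (by linarith only [hqq]) (by linarith only [hpc1, hqq, hq'])
    have h6 : c / 2 * X ^ (7 / 4 : ℝ) ≤ (c * X ^ (3 / 4 : ℝ) - 1) * X := by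
      rw [e2]
      nlinarith only [hX0, h35]
    have h7 := mul_le_mul_of_nonneg_left h6 hs0
    linarith only [h7]
  have hcC : 0 < c / 2 := by positivity
  rcases lt_or_eq_of_le hpc1 with hlt | heq
  · -- `p_c < 1`
    have h1pc : 0 < 1 - pc G := by linarith only [hlt]
    obtain ⟨C₀, hC₀, hC⟩ := blowup_bound hcC
    have hbl := hC a (pc G) (chi G)
      (fun q hq hqc => hX1 q (hp20.trans_le (hp2a.trans hq)) hqc)
      (fun q q' hq hqq hq' => hXm q q' (hp20.trans_le (hp2a.trans hq)) hqq hq')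
      (fun q q' hq hqq hq' => by
        refine le_trans ?_ (hgrow q q' hq hqq hq')
        have hq0 : 0 < q := hp20.trans_le (hp2a.trans hq)
        have hqc : q < pc G := hqq.trans_lt hq'
        have h2 : q' - q ≤ (q' - q) / (1 - q) := by
          rw [le_div_iff₀ (by linarith only [hlt, hqq, hq'])]
          nlinarith only [hp20, hqq, hp2a, hq]
        have h3 : 0 ≤ chi G q ^ (7 / 4 : ℝ) :=
          Real.rpow_nonneg (by linarith only [hX1 q hq0 hqc]) _
        have h4 := mul_le_mul_of_nonneg_right (mul_le_mul_of_nonneg_left h2 hcC.le) h3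
        (clear * - h4; linarith))
    set E := C₀ * (2 * d * C1 / (1 - pc G)) with hE
    have hEp : 0 < E := by (clear * - hC₀ hd1 hlt; positivity)
    -- `χ` is bounded
    have hbdd : ∀ q, a ≤ q → q < pc G → chi G q ^ (1 / 8 : ℝ) ≤ E := by
      intro q hq hqc
      have hq0 : 0 < q := hp20.trans_le (hp2a.trans hq)
      have hX := hX1 q hq0 hqc
      have hXp : 0 < chi G q := by linarith only [hX]
      have h58 : 0 < chi G q ^ (5 / 8 : ℝ) := Real.rpow_pos_of_pos hXp _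
      have hN := hN1 q (hp2a.trans hq) hqc
      have h1 := hext q _ hq0.le (hqc.trans hlt) hN (hL1 q (hp2a.trans hq) hqc)
      have h2 : (1 - pc G) / (2 * d * (C1 * chi G q ^ (5 / 8 : ℝ))) ≤ pc G - q := by
        have h3 : (1 - pc G) / (2 * d * (C1 * chi G q ^ (5 / 8 : ℝ))) ≤
            (1 - q) / (2 * d * (C1 * chi G q ^ (5 / 8 : ℝ))) :=
          div_le_div_of_nonneg_right (by linarith only [hqc]) (by (clear * - hd1 hX; positivity))
        linarith only [h1, h3]
      have h3 := hbl q hq hqc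
      have e : chi G q ^ (3 / 4 : ℝ) = chi G q ^ (1 / 8 : ℝ) * chi G q ^ (5 / 8 : ℝ) := by
        rw [← Real.rpow_add hXp]
        norm_num
      have h4 : 0 < chi G q ^ (3 / 4 : ℝ) := Real.rpow_pos_of_pos hXp _
      have h5 := (mul_le_mul_of_nonneg_right h2 h4.le).trans h3
      rw [e] at h5
      have h6 : (1 - pc G) / (2 * d * (C1 * chi G q ^ (5 / 8 : ℝ))) *
          (chi G q ^ (1 / 8 : ℝ) * chi G q ^ (5 / 8 : ℝ)) =
          (1 - pc G) / (2 * d * C1) * chi G q ^ (1 / 8 : ℝ) := by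
        (clear * - hX hC11 hd1 hlt; field_simp)
      rw [h6] at h5
      have h7 : (2 * d * C1) / (1 - pc G) * ((1 - pc G) / (2 * d * C1) * chi G q ^ (1 / 8 : ℝ)) =
          chi G q ^ (1 / 8 : ℝ) := by
        (clear * - hd1 hC11 hlt hX; field_simp)
      have h8 := mul_le_mul_of_nonneg_left h5
        (show 0 ≤ (2 * d * C1) / (1 - pc G) by positivity)
      rw [h7] at h8
      rw [hE]
      linarith only [h8]
    obtain ⟨q0, hq00, hq0c, hK⟩ := hinf ((2 * E) ^ (8 : ℝ))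
    have h1 := hbdd (max a q0) (le_max_left _ _) (max_lt hac hq0c)
    have h2 := hK (max a q0) (le_max_right _ _) (max_lt hac hq0c)
    have h3 := Real.rpow_le_rpow (by (clear * - hC₀ hd1 hlt; positivity)) h2 (show (0 : ℝ) ≤ 1 / 8 by norm_num)
    rw [← Real.rpow_mul (by (clear * - hC₀ hd1 hlt; positivity))] at h3
    norm_num at h3
    linarith only [hEp, h1, h3]
  · -- `p_c = 1`
    rw [heq] at hgrow
    exact no_blowup_one (hp20.le.trans hp2a) (heq ▸ hac) hcC (chi G)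
      (fun q hq hqc => hX1 q (hp20.trans_le (hp2a.trans hq)) (heq ▸ hqc))
      (fun q q' hq hqq hq' => hXm q q' (hp20.trans_le (hp2a.trans hq)) hqq (heq ▸ hq'))
      hgrow
theorem pc_lt_of_FS [G.LocallyFinite] [Infinite V] (hG : G.Connected)
    (hqt : IsQuasiTransitive G) {P : ℝ}
    (hP : ∀ p N : ℝ, 0 ≤ p → p ≤ 1 → L2B G p N → p ≤ P)
    (h : 0 < pc G → (∀ K : ℝ, ∃ q0 : ℝ, 0 < q0 ∧ q0 < pc G ∧ ∀ q, q0 ≤ q → q < pc G →
        K ≤ chi G q) → ∃ p2 c : ℝ, 0 < p2 ∧ p2 < pc G ∧ 0 < c ∧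
      ∀ q, p2 ≤ q → q < pc G → ∀ S : Finset V, S.Nonempty →
        c * chi G q ^ (3 / 4 : ℝ) * S.card ≤ FS G q S) :
    pc G < P := by
  refine pc_lt_of_bounds hG hqt hP fun hpc0 hinf => ?_
  obtain ⟨p2, c, hp20, hp2c, hc, hF⟩ := h hpc0 hinf
  have hpc1 := pc_le_one (G := G) hG
  have hne : Nonempty V := hG.nonempty
  have hsub : ∀ q, 0 < q → q < pc G → Sub G q := fun q h0 hq =>
    sub_of_lt_pc hG hqt h0.le hq (hq.le.trans hpc1)
  refine ⟨p2, 2 / Real.sqrt c, c, hp20, hp2c, by positivity, hc, ?_, ?_⟩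
  · intro q hq hqc
    have hq0 : 0 < q := hp20.trans_le hq
    have hX := one_le_chi hq0.le (hqc.le.trans hpc1) (hsub q hq0 hqc)
    have hXp : 0 < chi G q := by linarith only [hX]
    have h34 : 0 < chi G q ^ (3 / 4 : ℝ) := Real.rpow_pos_of_pos hXp _
    refine (L2B_of_y hq0.le (hqc.le.trans hpc1) (hsub q hq0 hqc)
      (y := c * chi G q ^ (3 / 4 : ℝ)) (by (clear * - hc hX; positivity)) (hF q hq hqc)).mg_mono_N (le_of_eq ?_)
    have e1 : chi G q / (c * chi G q ^ (3 / 4 : ℝ)) * chi G q =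
        chi G q ^ (5 / 4 : ℝ) / c := by
      have e2 : chi G q * chi G q = chi G q ^ (5 / 4 : ℝ) * chi G q ^ (3 / 4 : ℝ) := by
        rw [← Real.rpow_add hXp, show (5 / 4 : ℝ) + 3 / 4 = (2 : ℕ) by norm_num,
          Real.rpow_natCast]
        ring
      field_simp
      rw [pow_two, e2]
      ring
    rw [e1, Real.sqrt_div (Real.rpow_nonneg hXp.le _), Real.sqrt_eq_rpow (chi G q ^ (5 / 4 : ℝ)),
      ← Real.rpow_mul hXp.le]
    norm_num
    ring
  · intro q q' hq hqq hq'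
    have hq0 : 0 < q := hp20.trans_le hq
    exact chi_step hq0.le hqq (hq'.trans_le hpc1) (hsub q' (hq0.trans_le hqq) hq')
      (hF q hq (hqq.trans_lt hq'))
theorem pc_lt_of_nonamenable [G.LocallyFinite] [Infinite V] (hG : G.Connected)
    (hqt : IsQuasiTransitive G) (hna : 0 < vertexCheeger G) {P : ℝ}
    (hP : ∀ p N : ℝ, 0 ≤ p → p ≤ 1 → L2B G p N → p ≤ P) : pc G < P := by
  have hpc1 : pc G ≤ 1 := pc_le_one hG
  refine pc_lt_of_FS hG hqt hP fun hpc _ => ?_
  have hne : Nonempty V := hG.nonempty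
  have hI := iface2 hG hqt hna hpc hpc1
  obtain ⟨p2, K, hp2, hp2b, hK1, hK⟩ := core2 hI (κ := 1 / 4) (by norm_num)
  have hK0 : 0 < K := by linarith
  refine ⟨p2, K⁻¹, hp2, hp2b, inv_pos.2 hK0, fun q h1 h2 S _ => ?_⟩
  have hq0 : 0 < q := hp2.trans_le h1
  have hq1 : q < 1 := h2.trans_le hpc1
  have hs : Sub G q := sub_of_lt_pc hG hqt hq0.le h2 hq1.le
  have hX1 : 1 ≤ chi G q := one_le_chi hq0.le hq1.le hs
  have hX0 : 0 < chi G q := one_pos.trans_le hX1
  have hr0 : 0 ≤ chi G q ^ (3 / 4 : ℝ) := Real.rpow_nonneg hX0.le _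
  by_cases hKX : K ≤ chi G q
  · have h3 := hK q h1 h2 hKX S
    have h4 : (1 - 1 / 4 : ℝ) = 3 / 4 := by norm_num
    rw [h4] at h3
    refine le_trans ?_ h3
    have h5 : K⁻¹ ≤ 1 := inv_le_one_of_one_le₀ hK1
    have h6 : (0 : ℝ) ≤ S.card := Nat.cast_nonneg _
    nlinarith only [mul_le_mul_of_nonneg_right h5 (mul_nonneg hr0 h6)]
  · push Not at hKX
    refine le_trans ?_ (card_le_Fs hq0.le hq1.le hs S)
    have h6 : (0 : ℝ) ≤ S.card := Nat.cast_nonneg _
    have h7 : chi G q ^ (3 / 4 : ℝ) ≤ K := by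
      refine le_trans ?_ hKX.le
      calc chi G q ^ (3 / 4 : ℝ) ≤ chi G q ^ (1 : ℝ) :=
            Real.rpow_le_rpow_of_exponent_le hX1 (by norm_num)
        _ = chi G q := Real.rpow_one _
    have h8 : K⁻¹ * chi G q ^ (3 / 4 : ℝ) ≤ 1 := by
      rw [inv_mul_le_iff₀ hK0, mul_one]; exact h7
    calc K⁻¹ * chi G q ^ (3 / 4 : ℝ) * S.card ≤ 1 * S.card :=
          mul_le_mul_of_nonneg_right h8 h6
      _ = S.card := one_mul _
end Vale.Agent.P165.H794
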