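import Vale.Agent.P165.Bdl.B3
import Vale.Agent.P165.H794.Defs

/-!
# The two-point function and its operator norm
-/

open Finset MeasureTheory ProbabilityTheory
open scoped ENNReal

set_option linter.unusedSectionVars false

namespace Vale.Agent.P165.H794

open Vale.Agent.P151 (Ex Cn cl csz edgesIn EV con tau)
open Vale.Agent.P165.LF Vale.Agent.P165.BS Vale.Agent.P165.BS2

variable {V : Type} [DecidableEq V] {G : SimpleGraph V}

theorem Ex_con_eq (G : SimpleGraph V) [Countable V] (p : unitInterval) (x y : V) (F : Finset V) :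
    Ex (p : ℝ) (edgesIn G F) (con x y) = (setBernoulli G.edgeSet p).real
      {ω | (SimpleGraph.fromEdgeSet (ω ∩ (edgesIn G F : Set (Sym2 V)))).Reachable x y} := by
  classical
  have : Countable (Sym2 V) := by
    unfold Sym2; infer_instance
  have h4 := setBer_inter_pred G.edgeSet p (edgesIn G F)
    (fun e he => (Vale.Agent.P151.mem_edgesIn.1 (Finset.mem_coe.1 he)).1)
    (fun s => (SimpleGraph.fromEdgeSet s).Reachable x y)
  refine Eq.trans ?_ h4.symm
  unfold Ex
  rw [Finset.sum_filter]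
  apply Finset.sum_congr rfl
  intro S _
  unfold con
  by_cases h : Cn S x y
  · have h' : (SimpleGraph.fromEdgeSet (S : Set (Sym2 V))).Reachable x y := h
    rw [if_pos h, if_pos h', mul_one]
  · have h' : ¬ (SimpleGraph.fromEdgeSet (S : Set (Sym2 V))).Reachable x y := h
    rw [if_neg h, if_neg h', mul_zero]

theorem Ex_con_le (G : SimpleGraph V) [Countable V] (p : unitInterval) (x y : V) (F : Finset V) :
    Ex (p : ℝ) (edgesIn G F) (con x y) ≤ (twoPoint G p x y).toReal := by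
  rw [Ex_con_eq, measureReal_def]
  unfold twoPoint
  refine ENNReal.toReal_mono (measure_ne_top _ _) (measure_mono ?_)
  intro ω hω
  exact SimpleGraph.Reachable.mono (SimpleGraph.fromEdgeSet_mono Set.inter_subset_left) hω

/-- The two-point function is the supremum of the finite volume connection probabilities. -/
theorem twoPoint_eq (G : SimpleGraph V) [G.LocallyFinite] (hG : G.Connected) (p : unitInterval)
    (x y : V) : (twoPoint G p x y).toReal = tau G p x y := by
  have : Countable V := countable_of_connected G hG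
  refine le_antisymm (nu_le_tau G hG p x y) ?_
  exact Vale.Agent.P151.EV_le fun F => Ex_con_le G p x y F

theorem twoPoint_ne_top (G : SimpleGraph V) (p : unitInterval) (x y : V) :
    twoPoint G p x y ≠ ⊤ := measure_ne_top _ _

theorem twoPoint_comm (G : SimpleGraph V) (p : unitInterval) (x y : V) :
    twoPoint G p x y = twoPoint G p y x := by
  unfold twoPoint
  congr 1
  ext ω
  exact ⟨fun h => SimpleGraph.Reachable.symm h, fun h => SimpleGraph.Reachable.symm h⟩

/-- A finite-volume bound gives the bound for the two-point operator. -/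
theorem normTwoLe_of_L2B [G.LocallyFinite] (hG : G.Connected) (p : unitInterval) {N : ℝ}
    (h : L2B G (p : ℝ) N) : NormTwoLe G p N := by
  classical
  intro F f g
  set A : ℝ := √(∑ x ∈ F, f x ^ 2) * √(∑ y ∈ F, g y ^ 2) with hA
  set W : ℝ := ∑ x ∈ F, ∑ y ∈ F, |f x| * |g y| with hW
  have hW0 : 0 ≤ W := Finset.sum_nonneg fun x _ => Finset.sum_nonneg fun y _ =>
    mul_nonneg (abs_nonneg _) (abs_nonneg _)
  have h0 := p.2.1
  have h1 := p.2.2
  have habs : |∑ x ∈ F, ∑ y ∈ F, f x * g y * (twoPoint G p x y).toReal| ≤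
      ∑ x ∈ F, ∑ y ∈ F, |f x| * |g y| * tau G p x y := by
    refine (Finset.abs_sum_le_sum_abs _ _).trans (Finset.sum_le_sum fun x _ => ?_)
    refine (Finset.abs_sum_le_sum_abs _ _).trans (Finset.sum_le_sum fun y _ => ?_)
    rw [abs_mul, abs_mul, abs_of_nonneg ENNReal.toReal_nonneg, twoPoint_eq G hG]
  refine habs.trans ?_
  refine le_of_forall_pos_le_add fun ε hε => ?_
  set δ : ℝ := ε / (W + 1) with hδ
  have hδ0 : 0 < δ := div_pos hε (by linarith)
  have hex : ∀ x y, ∃ F' : Finset V, tau G p x y - δ < Ex (p : ℝ) (edgesIn G F') (con x y) :=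
    fun x y => Vale.Agent.P151.exists_lt_Ex (by
      change tau G p x y - δ < tau G p x y
      linarith)
  choose Fk hFk using hex
  set F' : Finset V := F ∪ F.biUnion fun x => F.biUnion fun y => Fk x y with hF'
  have hFF' : F ⊆ F' := subset_union_left
  have hbig : ∀ x ∈ F, ∀ y ∈ F, tau G p x y ≤ Ex (p : ℝ) (edgesIn G F') (con x y) + δ := by
    intro x hx y hy
    have h3 : Ex (p : ℝ) (edgesIn G (Fk x y)) (con x y) ≤ Ex (p : ℝ) (edgesIn G F') (con x y) := by
      refine Vale.Agent.P151.Ex_edgesIn_mono h0 h1 (Vale.Agent.P151.con_mono x y) ?_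
      refine Finset.Subset.trans ?_ subset_union_right
      exact (Finset.subset_biUnion_of_mem (fun y => Fk x y) hy).trans
        (Finset.subset_biUnion_of_mem (fun x => F.biUnion fun y => Fk x y) hx)
    have h4 := hFk x y
    linarith only [h3, h4]
  have hL := h.2 F' (fun z => if z ∈ F then |f z| else 0) (fun z => if z ∈ F then |g z| else 0)
    (fun z => by split_ifs; exacts [abs_nonneg _, le_rfl])
    (fun z => by split_ifs; exacts [abs_nonneg _, le_rfl])
  have e1 : ∑ x ∈ F', ∑ y ∈ F', (if x ∈ F then |f x| else 0) * (if y ∈ F then |g y| else 0) *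
      Ex (p : ℝ) (edgesIn G F') (con x y) =
      ∑ x ∈ F, ∑ y ∈ F, |f x| * |g y| * Ex (p : ℝ) (edgesIn G F') (con x y) := by
    rw [← Finset.sum_subset hFF']
    · refine Finset.sum_congr rfl fun x hx => ?_
      rw [← Finset.sum_subset hFF']
      · refine Finset.sum_congr rfl fun y hy => ?_
        rw [if_pos hx, if_pos hy]
      · intro y _ hy
        rw [if_neg hy, mul_zero, zero_mul]
    · intro x _ hx
      refine Finset.sum_eq_zero fun y _ => ?_
      rw [if_neg hx, zero_mul, zero_mul]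
  have e2 : ∀ f : V → ℝ, ∑ z ∈ F', (if z ∈ F then |f z| else 0) ^ 2 = ∑ z ∈ F, f z ^ 2 := by
    intro f
    rw [← Finset.sum_subset hFF']
    · refine Finset.sum_congr rfl fun z hz => ?_
      rw [if_pos hz, sq_abs]
    · intro z _ hz
      rw [if_neg hz]
      norm_num
  simp only [e1, e2] at hL
  have hfin : ∑ x ∈ F, ∑ y ∈ F, |f x| * |g y| * Ex (p : ℝ) (edgesIn G F') (con x y) ≤ N * A := by
    refine (le_abs_self _).trans ((Real.abs_le_sqrt hL).trans (le_of_eq ?_))
    rw [Real.sqrt_mul (sq_nonneg N), Real.sqrt_sq h.1,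
      Real.sqrt_mul (Finset.sum_nonneg fun _ _ => sq_nonneg _), hA]
  calc ∑ x ∈ F, ∑ y ∈ F, |f x| * |g y| * tau G p x y
      ≤ ∑ x ∈ F, ∑ y ∈ F, |f x| * |g y| * (Ex (p : ℝ) (edgesIn G F') (con x y) + δ) :=
        Finset.sum_le_sum fun x hx => Finset.sum_le_sum fun y hy =>
          mul_le_mul_of_nonneg_left (hbig x hx y hy) (mul_nonneg (abs_nonneg _) (abs_nonneg _))
    _ = ∑ x ∈ F, ∑ y ∈ F, |f x| * |g y| * Ex (p : ℝ) (edgesIn G F') (con x y) + W * δ := by
        rw [hW, Finset.sum_mul, ← Finset.sum_add_distrib]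
        refine Finset.sum_congr rfl fun x _ => ?_
        rw [Finset.sum_mul, ← Finset.sum_add_distrib]
        exact Finset.sum_congr rfl fun y _ => by ring
    _ ≤ N * A + ε := by
        have h5 : W * δ ≤ ε := by
          rw [hδ, mul_div_assoc', div_le_iff₀ (by linarith)]
          nlinarith only [hε, hW0]
        linarith only [hfin, h5]

theorem one_le_of_normTwoLe [Nonempty V] {p : unitInterval} {M : ℝ} (h : NormTwoLe G p M) :
    1 ≤ M := by
  classical
  obtain ⟨o⟩ := ‹Nonempty V›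
  have h2 := h {o} (fun _ => 1) (fun _ => 1)
  have e : twoPoint G p o o = 1 := by
    unfold twoPoint
    have : {ω : Set (Sym2 V) | (SimpleGraph.fromEdgeSet ω).Reachable o o} = Set.univ :=
      Set.eq_univ_of_forall fun ω => SimpleGraph.Reachable.refl o
    rw [this]
    exact measure_univ
  simpa [e] using h2

/-- The converse: the operator bound gives the finite-volume bound. -/
theorem L2B_of_normTwoLe [G.LocallyFinite] (hG : G.Connected) (p : unitInterval) {M : ℝ}
    (h : NormTwoLe G p M) : L2B G (p : ℝ) M := by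
  have : Countable V := countable_of_connected G hG
  have hne : Nonempty V := hG.nonempty
  have hM : 0 ≤ M := zero_le_one.trans (one_le_of_normTwoLe h)
  refine ⟨hM, fun F φ ψ hφ hψ => ?_⟩
  have h2 := h F φ ψ
  have h3 : ∑ x ∈ F, ∑ y ∈ F, φ x * ψ y * Ex (p : ℝ) (edgesIn G F) (con x y) ≤
      M * (√(∑ x ∈ F, φ x ^ 2) * √(∑ y ∈ F, ψ y ^ 2)) := by
    refine le_trans (Finset.sum_le_sum fun x _ => Finset.sum_le_sum fun y _ => ?_)
      ((le_abs_self _).trans h2)
    exact mul_le_mul_of_nonneg_left (Ex_con_le G p x y F) (mul_nonneg (hφ x) (hψ y))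
  have h4 : 0 ≤ ∑ x ∈ F, ∑ y ∈ F, φ x * ψ y * Ex (p : ℝ) (edgesIn G F) (con x y) :=
    Finset.sum_nonneg fun x _ => Finset.sum_nonneg fun y _ =>
      mul_nonneg (mul_nonneg (hφ x) (hψ y)) (mg_Ex_con_nonneg p.2.1 p.2.2 _ x y)
  refine (pow_le_pow_left₀ h4 h3 2).trans (le_of_eq ?_)
  rw [mul_pow, mul_pow, Real.sq_sqrt (Finset.sum_nonneg fun _ _ => sq_nonneg _),
    Real.sq_sqrt (Finset.sum_nonneg fun _ _ => sq_nonneg _)]

/-- The set defining `p_{2→2}`. -/
theorem pTwoTwo_eq [G.LocallyFinite] (hG : G.Connected) :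
    pTwoTwo G = sSup {p : ℝ | p ∈ Set.Icc (0 : ℝ) 1 ∧ ∃ N : ℝ, L2B G p N} := by
  unfold pTwoTwo
  congr 1
  ext p
  constructor
  · rintro ⟨h, M, hM⟩
    exact ⟨h, M, L2B_of_normTwoLe hG ⟨p, h⟩ hM⟩
  · rintro ⟨h, N, hN⟩
    exact ⟨h, N, normTwoLe_of_L2B hG ⟨p, h⟩ hN⟩

theorem le_pTwoTwo [G.LocallyFinite] (hG : G.Connected) {p N : ℝ} (h0 : 0 ≤ p) (h1 : p ≤ 1)
    (h : L2B G p N) : p ≤ pTwoTwo G := by
  rw [pTwoTwo_eq hG]
  exact le_csSup ⟨1, fun q hq => hq.1.2⟩ ⟨⟨h0, h1⟩, N, h⟩

theorem pTwoTwo_le_pu [G.LocallyFinite] [Infinite V] (hG : G.Connected)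
    (hqt : IsQuasiTransitive G) : pTwoTwo G ≤ pu G := by
  rw [pTwoTwo_eq hG]
  refine csSup_le ⟨0, ⟨le_rfl, zero_le_one⟩, 1, L2B_zero⟩ ?_
  rintro p ⟨hp, N, hN⟩
  exact le_pu_of_L2B hG hqt hp.2 hN

/-- Below `p_{2→2}` the operator is bounded. -/
theorem exists_L2B_of_lt [G.LocallyFinite] (hG : G.Connected) {q : ℝ} (h : q < pTwoTwo G) :
    ∃ p N : ℝ, q < p ∧ 0 ≤ p ∧ p ≤ 1 ∧ L2B G p N := by
  rw [pTwoTwo_eq hG] at h
  obtain ⟨p, ⟨hp, N, hN⟩, hlt⟩ :=
    exists_lt_of_lt_csSup (s := {p : ℝ | p ∈ Set.Icc (0 : ℝ) 1 ∧ ∃ N : ℝ, L2B G p N})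
      ⟨0, ⟨le_rfl, zero_le_one⟩, 1, L2B_zero⟩ h
  exact ⟨p, N, hlt, hp.1, hp.2, hN⟩

/-! ### The triangle diagram -/

theorem sum_sq_twoPoint_le {p : unitInterval} {M : ℝ} (h : NormTwoLe G p M) (hM : 0 ≤ M) (x : V)
    (F : Finset V) (hx : x ∈ F) : ∑ y ∈ F, (twoPoint G p x y).toReal ^ 2 ≤ M ^ 2 := by
  classical
  have h2 := h F (fun z => if z = x then 1 else 0) (fun z => (twoPoint G p x z).toReal)
  have e1 : ∑ z ∈ F, ∑ y ∈ F, (if z = x then (1 : ℝ) else 0) * (twoPoint G p x y).toReal *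
      (twoPoint G p z y).toReal = ∑ y ∈ F, (twoPoint G p x y).toReal ^ 2 := by
    rw [Finset.sum_eq_single_of_mem x hx]
    · refine Finset.sum_congr rfl fun y _ => ?_
      rw [if_pos rfl, one_mul, sq]
    · intro z _ hz
      refine Finset.sum_eq_zero fun y _ => ?_
      rw [if_neg hz, zero_mul, zero_mul]
  have e2 : ∑ z ∈ F, (if z = x then (1 : ℝ) else 0) ^ 2 = 1 := by
    rw [Finset.sum_eq_single_of_mem x hx]
    · simp
    · intro z _ hz
      simp [hz]
  rw [e1, e2, Real.sqrt_one, one_mul] at h2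
  set T := ∑ y ∈ F, (twoPoint G p x y).toReal ^ 2 with hT
  have hT0 : 0 ≤ T := Finset.sum_nonneg fun _ _ => sq_nonneg _
  have h3 : T ≤ M * √T := (le_abs_self _).trans h2
  have h4 : √T ≤ M := by
    rcases eq_or_lt_of_le (Real.sqrt_nonneg T) with h5 | h5
    · rw [← h5]; exact hM
    · have h6 : √T * √T ≤ M * √T := by rw [Real.mul_self_sqrt hT0]; exact h3
      exact le_of_mul_le_mul_right h6 h5
  calc T = √T ^ 2 := (Real.sq_sqrt hT0).symm
    _ ≤ M ^ 2 := pow_le_pow_left₀ (Real.sqrt_nonneg T) h4 2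

theorem triangle_le [Nonempty V] {p : unitInterval} {M : ℝ} (h : NormTwoLe G p M) (x : V) :
    triangle G p x ≤ ENNReal.ofReal (M ^ 3) := by
  classical
  have hM : 0 ≤ M := zero_le_one.trans (one_le_of_normTwoLe h)
  unfold triangle
  rw [← ENNReal.tsum_prod (f := fun y z => twoPoint G p x y * twoPoint G p y z * twoPoint G p z x)]
  rw [ENNReal.tsum_eq_iSup_sum]
  refine iSup_le fun s => ?_
  set F : Finset V := insert x (s.image Prod.fst ∪ s.image Prod.snd) with hF
  have hsF : s ⊆ F ×ˢ F := by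
    intro z hz
    rw [Finset.mem_product]
    exact ⟨Finset.mem_insert_of_mem (Finset.mem_union_left _ (Finset.mem_image_of_mem _ hz)),
      Finset.mem_insert_of_mem (Finset.mem_union_right _ (Finset.mem_image_of_mem _ hz))⟩
  have hx : x ∈ F := Finset.mem_insert_self _ _
  refine (Finset.sum_le_sum_of_subset hsF).trans ?_
  have hreal : ∑ z ∈ F ×ˢ F, twoPoint G p x z.1 * twoPoint G p z.1 z.2 * twoPoint G p z.2 x =
      ENNReal.ofReal (∑ y ∈ F, ∑ z ∈ F, (twoPoint G p x y).toReal * (twoPoint G p x z).toReal *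
        (twoPoint G p y z).toReal) := by
    rw [← Finset.sum_product' F F (fun y z => (twoPoint G p x y).toReal *
      (twoPoint G p x z).toReal * (twoPoint G p y z).toReal)]
    rw [ENNReal.ofReal_sum_of_nonneg (fun _ _ => by positivity)]
    refine Finset.sum_congr rfl fun z _ => ?_
    rw [← ENNReal.toReal_mul, ← ENNReal.toReal_mul, ENNReal.ofReal_toReal]
    · rw [twoPoint_comm G p x z.2]
      ring
    · exact ENNReal.mul_ne_top (ENNReal.mul_ne_top (twoPoint_ne_top _ _ _ _)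
        (twoPoint_ne_top _ _ _ _)) (twoPoint_ne_top _ _ _ _)
  rw [hreal]
  refine ENNReal.ofReal_le_ofReal ?_
  have h2 := h F (fun y => (twoPoint G p x y).toReal) (fun z => (twoPoint G p x z).toReal)
  refine (le_abs_self _).trans (h2.trans ?_)
  have h3 := sum_sq_twoPoint_le h hM x F hx
  rw [Real.mul_self_sqrt (Finset.sum_nonneg fun _ _ => sq_nonneg _)]
  calc M * ∑ y ∈ F, (twoPoint G p x y).toReal ^ 2 ≤ M * M ^ 2 :=
        mul_le_mul_of_nonneg_left h3 hM
    _ = M ^ 3 := by ring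

end Vale.Agent.P165.H794
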