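import Vale.Agent.P165.Bdl.B3
import Vale.Agent.P165.H794.Defs

/-!
# The mean-field bound for the susceptibility from the `ℓ²` bound
-/

open Finset MeasureTheory ProbabilityTheory
open scoped ENNReal

set_option linter.unusedSectionVars false

namespace Vale.Agent.P165.H794

open Vale.Agent.P151 (Ex Cn cl csz edgesIn EV con tau)
open Vale.Agent.P165.LF Vale.Agent.P165.BS Vale.Agent.P165.BS2

variable {V : Type} [DecidableEq V] {G : SimpleGraph V}

theorem Ex_con_symm (q : ℝ) (Λ : Finset (Sym2 V)) (x y : V) :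
    Ex q Λ (con x y) = Ex q Λ (con y x) :=
  Vale.Agent.P151.Ex_congr q fun S _ => ek_con_comm x y S

/-- `∑_u (∑_{s ∈ S} P(u ↔ s))² ≤ N² |S|`. -/
theorem sum_sq_le_of_L2B {q N : ℝ} (h : L2B G q N) (F S : Finset V) (hS : S ⊆ F)
    (h0 : 0 ≤ q) (h1 : q ≤ 1) :
    ∑ u ∈ F, (∑ s ∈ S, Ex q (edgesIn G F) (con u s)) ^ 2 ≤ N ^ 2 * S.card := by
  classical
  set a : V → ℝ := fun u => ∑ s ∈ S, Ex q (edgesIn G F) (con u s) with ha
  have ha0 : ∀ u, 0 ≤ a u := fun u => Finset.sum_nonneg fun s _ => mg_Ex_con_nonneg h0 h1 _ u s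
  have hL := h.2 F a (fun z => if z ∈ S then 1 else 0) ha0
    (fun z => by split_ifs <;> norm_num)
  have e1 : ∑ x ∈ F, ∑ y ∈ F, a x * (if y ∈ S then (1 : ℝ) else 0) *
      Ex q (edgesIn G F) (con x y) = ∑ u ∈ F, a u ^ 2 := by
    refine Finset.sum_congr rfl fun u _ => ?_
    rw [← Finset.sum_subset hS]
    · rw [sq]
      conv_rhs => rw [ha]
      simp only
      rw [Finset.mul_sum]
      refine Finset.sum_congr rfl fun s hs => ?_
      rw [if_pos hs, mul_one]
    · intro y _ hy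
      rw [if_neg hy, mul_zero, zero_mul]
  have e2 : ∑ z ∈ F, (if z ∈ S then (1 : ℝ) else 0) ^ 2 = S.card := by
    rw [← Finset.sum_subset hS]
    · rw [Finset.sum_congr rfl (fun z hz => by rw [if_pos hz, one_pow] :
        ∀ z ∈ S, (if z ∈ S then (1 : ℝ) else 0) ^ 2 = 1), Finset.sum_const, nsmul_eq_mul, mul_one]
    · intro z _ hz
      rw [if_neg hz]
      norm_num
  rw [e1, e2] at hL
  set T := ∑ u ∈ F, a u ^ 2 with hT
  have hT0 : 0 ≤ T := Finset.sum_nonneg fun _ _ => sq_nonneg _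
  rcases eq_or_lt_of_le hT0 with h5 | h5
  · rw [← h5]; positivity
  · have h6 : T * T ≤ (N ^ 2 * S.card) * T := by
      calc T * T = T ^ 2 := (sq T).symm
        _ ≤ N ^ 2 * (T * S.card) := hL
        _ = _ := by ring
    exact le_of_mul_le_mul_right h6 h5

/-- Lower bound for the expected number of vertices connected to `S`. -/
theorem FS_ge_of_L2B [G.LocallyFinite] [Infinite V] (hG : G.Connected)
    (hqt : IsQuasiTransitive G) {p2 : ℝ} (h0 : 0 < p2) (h1 : p2 ≤ 1) {N : ℝ} (hN : 0 < N) :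
    ∃ c, 0 < c ∧ ∀ q, p2 ≤ q → q ≤ 1 → Sub G q → L2B G q N → ∀ S : Finset V, S.Nonempty →
      c * chi G q * S.card ≤ FS G q S := by
  classical
  obtain ⟨c, hc0, hc1, hvol⟩ := exists_vol_lower hG hqt h0 h1
  refine ⟨c ^ 2 / N ^ 2, by positivity, fun q hq hq1 hs hL S hSne => ?_⟩
  have hq0 : 0 ≤ q := h0.le.trans hq
  have hne : Nonempty V := hG.nonempty
  have hchi : 1 ≤ chi G q := one_le_chi hq0 hq1 hs
  have hcard : (0 : ℝ) < S.card := by exact_mod_cast hSne.card_pos
  obtain ⟨F0, hF0⟩ := hvol q hq hq1 hs S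
  set F : Finset V := F0 ∪ S with hF
  have hSF : S ⊆ F := subset_union_right
  set Λ := edgesIn G F with hΛ
  have hΛF : ∀ e ∈ Λ, ∀ v ∈ e, v ∈ F := fun e he v hv =>
    (Vale.Agent.P151.mem_edgesIn.1 he).2 v hv
  -- first moment
  have hA : c * chi G q * S.card ≤ ∑ y ∈ F, Ex q Λ (fun T => ∑ s ∈ S, con y s T) := by
    have e1 : ∑ y ∈ F, Ex q Λ (fun T => ∑ s ∈ S, con y s T) = ∑ s ∈ S, vol G q (s, F) := by
      rw [Finset.sum_congr rfl fun y _ => Vale.Agent.P151.Ex_sum q Λ S (fun s => con y s),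
        Finset.sum_comm]
      refine Finset.sum_congr rfl fun s hs' => ?_
      unfold vol
      rw [← Vale.Agent.P151.Ex_sum]
      refine Vale.Agent.P151.Ex_congr q fun T hT => ?_
      rw [csz_eq_sum (U := F) (fun e he => hΛF e (hT he)) (hSF hs')]
      refine Finset.sum_congr rfl fun y _ => ?_
      rw [ek_con_comm, con_eq_ind]
    rw [e1]
    calc c * chi G q * S.card = ∑ _s ∈ S, c * chi G q := by
          rw [Finset.sum_const, nsmul_eq_mul]; ring
      _ ≤ _ := Finset.sum_le_sum fun s hs' => hF0 F subset_union_left s hs'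
  -- second moment
  have hB : ∑ y ∈ F, Ex q Λ (fun T => (∑ s ∈ S, con y s T) ^ 2) ≤
      chi G q * (N ^ 2 * S.card) := by
    have e1 : ∀ y ∈ F, Ex q Λ (fun T => (∑ s ∈ S, con y s T) ^ 2) ≤
        ∑ u ∈ F, Ex q Λ (con y u) * (∑ s ∈ S, Ex q Λ (con u s)) ^ 2 := by
      intro y hy
      have e2 : Ex q Λ (fun T => (∑ s ∈ S, con y s T) ^ 2) =
          ∑ s ∈ S, ∑ s' ∈ S, Ex q Λ (fun T => ind (Cn T y s) * ind (Cn T y s')) := by
        rw [← Finset.sum_congr rfl fun s _ => Vale.Agent.P151.Ex_sum q Λ S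
          (fun s' T => ind (Cn T y s) * ind (Cn T y s')), ← Vale.Agent.P151.Ex_sum]
        refine Vale.Agent.P151.Ex_congr q fun T _ => ?_
        rw [sq, Finset.sum_mul_sum]
        refine Finset.sum_congr rfl fun s _ => Finset.sum_congr rfl fun s' _ => ?_
        rw [con_eq_ind, con_eq_ind]
      rw [e2]
      refine (Finset.sum_le_sum fun s _ => Finset.sum_le_sum fun s' _ =>
        three_point hq0 hq1 Λ F hΛF y s s' hy).trans (le_of_eq ?_)
      have e3 : ∀ u ∈ F, Ex q Λ (con y u) * (∑ s ∈ S, Ex q Λ (con u s)) ^ 2 =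
          ∑ s ∈ S, ∑ s' ∈ S, Ex q Λ (con y u) * (Ex q Λ (con u s) * Ex q Λ (con u s')) := by
        intro u _
        rw [sq, Finset.sum_mul_sum, Finset.mul_sum]
        exact Finset.sum_congr rfl fun s _ => by rw [Finset.mul_sum]
      rw [Finset.sum_congr rfl e3]
      calc _ = ∑ s ∈ S, ∑ u ∈ F, ∑ s' ∈ S,
            Ex q Λ (con y u) * (Ex q Λ (con u s) * Ex q Λ (con u s')) :=
            Finset.sum_congr rfl fun s _ => Finset.sum_comm
        _ = _ := Finset.sum_comm
    refine (Finset.sum_le_sum e1).trans ?_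
    rw [Finset.sum_comm]
    calc ∑ u ∈ F, ∑ y ∈ F, Ex q Λ (con y u) * (∑ s ∈ S, Ex q Λ (con u s)) ^ 2
        = ∑ u ∈ F, (∑ y ∈ F, Ex q Λ (con y u)) * (∑ s ∈ S, Ex q Λ (con u s)) ^ 2 :=
          Finset.sum_congr rfl fun u _ => by rw [Finset.sum_mul]
      _ ≤ ∑ u ∈ F, chi G q * (∑ s ∈ S, Ex q Λ (con u s)) ^ 2 :=
          Finset.sum_le_sum fun u _ => mul_le_mul_of_nonneg_right
            (ek_sum_con_le hq0 hq1 hs F F u) (sq_nonneg _)
      _ = chi G q * ∑ u ∈ F, (∑ s ∈ S, Ex q Λ (con u s)) ^ 2 := by rw [Finset.mul_sum]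
      _ ≤ chi G q * (N ^ 2 * S.card) := mul_le_mul_of_nonneg_left
            (sum_sq_le_of_L2B hL F S hSF hq0 hq1) (by linarith only [hchi])
  -- Cauchy-Schwarz
  set C := ∑ y ∈ F, Ex q Λ (hit y (S : Set V)) with hC
  have hCF : C ≤ FS G q S := sum_Ex_hit_le_Fs hq0 hq1 hs S F F
  set lam : ℝ := c / N ^ 2 with hlam
  have hlam0 : 0 < lam := by positivity
  have hCS : ∑ y ∈ F, Ex q Λ (fun T => ∑ s ∈ S, con y s T) ≤
      lam / 2 * ∑ y ∈ F, Ex q Λ (fun T => (∑ s ∈ S, con y s T) ^ 2) + 1 / (2 * lam) * C := by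
    rw [hC, Finset.mul_sum, Finset.mul_sum, ← Finset.sum_add_distrib]
    refine Finset.sum_le_sum fun y _ => ?_
    rw [← Vale.Agent.P151.Ex_const_mul, ← Vale.Agent.P151.Ex_const_mul,
      ← Vale.Agent.P151.Ex_add]
    refine Vale.Agent.P151.Ex_mono hq0 hq1 fun T _ => ?_
    by_cases hh : ∃ s ∈ (S : Set V), Cn T y s
    · have e1 : hit y (S : Set V) T = 1 := ind_true hh
      rw [e1]
      set X := ∑ s ∈ S, con y s T with hX
      have h2 : 0 ≤ (lam * X - 1) ^ 2 := sq_nonneg _
      have h3 : X = (2 * lam * X) / (2 * lam) := by field_simp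
      have h4 : lam / 2 * X ^ 2 + 1 / (2 * lam) * 1 = (lam ^ 2 * X ^ 2 + 1) / (2 * lam) := by
        field_simp
      rw [h4]
      conv_lhs => rw [h3]
      refine div_le_div_of_nonneg_right ?_ (by positivity)
      nlinarith only [h2]
    · have e1 : hit y (S : Set V) T = 0 := ind_false hh
      have e2 : ∑ s ∈ S, con y s T = 0 := by
        refine Finset.sum_eq_zero fun s hs' => ?_
        rw [con_eq_ind]
        exact ind_false fun h => hh ⟨s, hs', h⟩
      rw [e1, e2]
      norm_num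
  have h5 : lam / 2 * ∑ y ∈ F, Ex q Λ (fun T => (∑ s ∈ S, con y s T) ^ 2) ≤
      c * chi G q * S.card / 2 := by
    refine (mul_le_mul_of_nonneg_left hB (by positivity)).trans (le_of_eq ?_)
    rw [hlam]
    field_simp
  have h6 : c * chi G q * S.card / 2 ≤ 1 / (2 * lam) * C := by linarith only [hA, hCS, h5]
  refine le_trans ?_ hCF
  have h7 : lam * (c * chi G q * S.card) ≤ C := by
    have h8 := mul_le_mul_of_nonneg_left h6 (show (0 : ℝ) ≤ 2 * lam by positivity)
    have h9 : 2 * lam * (1 / (2 * lam) * C) = C := by field_simp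
    rw [h9] at h8
    linarith only [h8]
  refine le_trans (le_of_eq ?_) h7
  rw [hlam]
  ring

/-- Real analysis: quadratic growth gives the bound `X(q) ≤ 2 / (κ (b - q))`. -/
theorem quad_blowup {κ a b : ℝ} (hκ : 0 < κ) (X : ℝ → ℝ)
    (hX1 : ∀ q, a ≤ q → q < b → 1 ≤ X q)
    (hXm : ∀ q q', a ≤ q → q ≤ q' → q' < b → X q ≤ X q')
    (hstep : ∀ q q', a ≤ q → q ≤ q' → q' < b → X q + κ * (q' - q) * X q ^ 2 ≤ X q') :
    ∀ q, a ≤ q → q < b → X q ≤ 2 / (κ * (b - q)) := by
  intro q hq hqb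
  by_contra hcon
  rw [not_le] at hcon
  have hXq := hX1 q hq hqb
  have hX0 : 0 < X q := by linarith only [hXq]
  have hbq : 0 < b - q := by linarith only [hqb]
  set Q := q + 2 / (κ * X q) with hQ
  have hQb : Q < b := by
    rw [div_lt_iff₀ (by positivity)] at hcon
    have h1 : 2 / (κ * X q) < b - q := by
      rw [div_lt_iff₀ (by positivity)]
      calc 2 < X q * (κ * (b - q)) := hcon
        _ = _ := by ring
    rw [hQ]
    linarith only [h1]
  have key : ∀ k : ℕ, ∃ x, q ≤ x ∧ x + 2 / (κ * ((2 : ℝ) ^ k * X q)) ≤ Q ∧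
      (2 : ℝ) ^ k * X q ≤ X x := by
    intro k
    induction k with
    | zero => exact ⟨q, le_rfl, by rw [pow_zero, one_mul], by rw [pow_zero, one_mul]⟩
    | succ k ih =>
      obtain ⟨x, hx1, hx2, hx3⟩ := ih
      have hp : (0 : ℝ) < 2 ^ k * X q := by positivity
      set Y := (2 : ℝ) ^ k * X q with hY
      have h3 : 0 < 1 / (κ * Y) := by positivity
      have h4 : 2 / (κ * Y) = 1 / (κ * Y) + 1 / (κ * Y) := by ring
      have hxb : x + 1 / (κ * Y) < b := by linarith only [hx2, hQb, h3, h4]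
      have h1 := hstep x (x + 1 / (κ * Y)) (by linarith only [hq, hx1]) (by linarith only [h3]) hxb
      have hXx : 0 < X x := hp.trans_le hx3
      refine ⟨x + 1 / (κ * Y), by linarith only [hx1, h3], ?_, ?_⟩
      · have h5 : (2 : ℝ) ^ (k + 1) * X q = 2 * Y := by rw [hY, pow_succ]; ring
        have h6 : 2 / (κ * ((2 : ℝ) ^ (k + 1) * X q)) = 1 / (κ * Y) := by
          rw [h5]
          field_simp
        rw [h6]
        linarith only [hx2, h4]
      · have h5 : (2 : ℝ) ^ (k + 1) * X q = 2 * Y := by rw [hY, pow_succ]; ring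
        rw [h5]
        have h6 : κ * (x + 1 / (κ * Y) - x) * X x ^ 2 = X x * (X x / Y) := by
          field_simp
          ring
        rw [h6] at h1
        have h7 : 1 ≤ X x / Y := by rw [le_div_iff₀ hp, one_mul]; exact hx3
        have h8 : X x ≤ X x * (X x / Y) := le_mul_of_one_le_right hXx.le h7
        linarith only [h1, h8, hx3]
  obtain ⟨k, hk⟩ := pow_unbounded_of_one_lt (X Q) (one_lt_two (α := ℝ))
  obtain ⟨x, hx1, hx2, hx3⟩ := key k
  have hp : (0 : ℝ) < 2 ^ k * X q := by positivity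
  have h1 : 0 ≤ 2 / (κ * ((2 : ℝ) ^ k * X q)) := by positivity
  have h2 := hXm x Q (by linarith only [hq, hx1]) (by linarith only [hx2, h1]) hQb
  have h3 : (2 : ℝ) ^ k ≤ 2 ^ k * X q := le_mul_of_one_le_right (by positivity) hXq
  linarith only [hk, hx3, h2, h3]

/-- The mean-field upper bound `χ_q ≤ C / (p_c - q)`. -/
theorem chi_le_of_L2B [G.LocallyFinite] [Infinite V] (hG : G.Connected)
    (hqt : IsQuasiTransitive G) (hpc0 : 0 < pc G) (hpc1 : pc G ≤ 1) {N : ℝ} (hN : 0 < N)
    (hL : ∀ q, 0 ≤ q → q < pc G → L2B G q N) :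
    ∃ C, 0 < C ∧ ∀ q, 0 ≤ q → q < pc G → chi G q ≤ C / (pc G - q) := by
  have hne : Nonempty V := hG.nonempty
  set p2 := pc G / 2 with hp2
  have hp20 : 0 < p2 := by linarith only [hpc0, hp2]
  have hp2c : p2 < pc G := by linarith only [hpc0, hp2]
  obtain ⟨c, hc, hFS⟩ := FS_ge_of_L2B hG hqt hp20 (hp2c.le.trans hpc1) hN
  have hsub : ∀ q, 0 ≤ q → q < pc G → Sub G q := fun q h0 hq =>
    sub_of_lt_pc hG hqt h0 hq (hq.le.trans hpc1)
  have hX1 : ∀ q, 0 ≤ q → q < pc G → 1 ≤ chi G q := fun q h0 hq =>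
    one_le_chi h0 (hq.le.trans hpc1) (hsub q h0 hq)
  have hXm : ∀ q q', 0 ≤ q → q ≤ q' → q' < pc G → chi G q ≤ chi G q' := fun q q' h0 hqq hq' =>
    chi_mono h0 hqq (hq'.le.trans hpc1) (hsub q' (h0.trans hqq) hq')
  have hstep : ∀ q q', p2 ≤ q → q ≤ q' → q' < pc G →
      chi G q + (q' - q) / (1 - q) * ((c * chi G q - 1) * chi G q) ≤ chi G q' := by
    intro q q' hq hqq hq'
    have hq0 : 0 ≤ q := hp20.le.trans hq
    have hqc : q < pc G := hqq.trans_lt hq'
    exact chi_step hq0 hqq (hq'.trans_le hpc1) (hsub q' (hq0.trans hqq) hq')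
      (fun S hS => hFS q hq (hqc.le.trans hpc1) (hsub q hq0 hqc) (hL q hq0 hqc) S hS)
  -- either `χ` is bounded by `2 / c` or we are in the regime of quadratic growth
  refine ⟨2 / c + 8 / c, by positivity, fun q hq0 hqc => ?_⟩
  have hd : 0 < pc G - q := by linarith only [hqc]
  have hd1 : pc G - q ≤ 1 := by linarith only [hpc1, hq0]
  have hA : ∀ t, 0 < t → t ≤ t / (pc G - q) := fun t ht => by
    rw [le_div_iff₀ hd]
    exact mul_le_of_le_one_right ht.le hd1
  by_cases hsmall : chi G q ≤ 2 / c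
  · refine hsmall.trans ((hA (2 / c) (by positivity)).trans ?_)
    refine div_le_div_of_nonneg_right ?_ hd.le
    have : 0 < 8 / c := by positivity
    linarith only [this]
  · rw [not_le] at hsmall
    -- `a = max q p2`
    set a := max q p2 with ha
    have hac : a < pc G := max_lt hqc hp2c
    have hbl := quad_blowup (κ := c / 2) (a := a) (b := pc G) (by positivity) (chi G)
      (fun t ht htc => hX1 t (hq0.trans ((le_max_left _ _).trans ht)) htc)
      (fun t t' ht htt ht' => hXm t t' (hq0.trans ((le_max_left _ _).trans ht)) htt ht')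
      (fun t t' ht htt ht' => by
        have htc : t < pc G := htt.trans_lt ht'
        have ht0 : 0 ≤ t := hq0.trans ((le_max_left _ _).trans ht)
        refine le_trans ?_ (hstep t t' ((le_max_right _ _).trans ht) htt ht')
        have hX : 2 / c < chi G t := hsmall.trans_le (hXm q t hq0 ((le_max_left _ _).trans ht) htc)
        have hXp : 0 < chi G t := by linarith only [hX1 t ht0 htc]
        have h1 : 1 ≤ c / 2 * chi G t := by
          rw [div_lt_iff₀ hc] at hX
          linarith only [hX]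
        have h2 : c / 2 * chi G t ^ 2 ≤ (c * chi G t - 1) * chi G t := by
          nlinarith only [h1, hXp]
        have h1t : 0 < 1 - t := by linarith only [htc, hpc1]
        have h3 : t' - t ≤ (t' - t) / (1 - t) := by
          rw [le_div_iff₀ h1t]
          nlinarith only [htt, ht0]
        have h4 : 0 ≤ (c * chi G t - 1) * chi G t := by
          refine le_trans ?_ h2
          positivity
        have h5 : (t' - t) * (c / 2 * chi G t ^ 2) ≤
            (t' - t) / (1 - t) * ((c * chi G t - 1) * chi G t) :=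
          mul_le_mul h3 h2 (by positivity) (div_nonneg (by linarith only [htt]) h1t.le)
        linarith only [h5])
      a le_rfl hac
    have h6 : chi G q ≤ chi G a := hXm q a hq0 (le_max_left _ _) hac
    refine h6.trans (hbl.trans ?_)
    -- `pc - a ≥ (pc - q)/2`
    have h7 : (pc G - q) / 2 ≤ pc G - a := by
      rcases le_total q p2 with h | h
      · rw [ha, max_eq_right h, hp2]
        linarith only [hq0]
      · rw [ha, max_eq_left h]
        linarith only [hd]
    have h8 : 2 / (c / 2 * (pc G - a)) ≤ 2 / (c / 2 * ((pc G - q) / 2)) :=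
      div_le_div_of_nonneg_left (by norm_num) (by positivity)
        (mul_le_mul_of_nonneg_left h7 (by positivity))
    refine h8.trans ?_
    have h9 : 2 / (c / 2 * ((pc G - q) / 2)) = (8 / c) / (pc G - q) := by
      field_simp
      norm_num
    rw [h9]
    refine div_le_div_of_nonneg_right ?_ hd.le
    have : 0 < 2 / c := by positivity
    linarith only [this]

end Vale.Agent.P165.H794
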