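import Vale.Agent.P165.H794.Form
import Vale.Agent.P165.H794.MeanField

/-!
# The susceptibility
-/

open Finset MeasureTheory ProbabilityTheory
open scoped ENNReal

set_option linter.unusedSectionVars false

namespace Vale.Agent.P165.H794

open Vale.Agent.P151 (Ex Cn cl csz edgesIn EV con tau)
open Vale.Agent.P165.LF Vale.Agent.P165.BS Vale.Agent.P165.BS2

variable {V : Type} [DecidableEq V] {G : SimpleGraph V}

theorem encard_eq_tsum (x : V) (ω : Set (Sym2 V)) :
    (({y | (SimpleGraph.fromEdgeSet ω).Reachable x y}.encard : ℕ∞) : ℝ≥0∞) =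
      ∑' y, {ω : Set (Sym2 V) | (SimpleGraph.fromEdgeSet ω).Reachable x y}.indicator 1 ω := by
  rw [← ENNReal.tsum_set_one,
    _root_.tsum_subtype {y | (SimpleGraph.fromEdgeSet ω).Reachable x y} (fun _ => (1 : ℝ≥0∞))]
  refine tsum_congr fun y => ?_
  by_cases h : (SimpleGraph.fromEdgeSet ω).Reachable x y
  · rw [Set.indicator_of_mem (show y ∈ {y | (SimpleGraph.fromEdgeSet ω).Reachable x y} from h),
      Set.indicator_of_mem
        (show ω ∈ {ω : Set (Sym2 V) | (SimpleGraph.fromEdgeSet ω).Reachable x y} from h)]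
    rfl
  · rw [Set.indicator_of_notMem (show y ∉ {y | (SimpleGraph.fromEdgeSet ω).Reachable x y} from h),
      Set.indicator_of_notMem
        (show ω ∉ {ω : Set (Sym2 V) | (SimpleGraph.fromEdgeSet ω).Reachable x y} from h)]

theorem susceptibility_eq [Countable V] (G : SimpleGraph V) (p : unitInterval) (x : V) :
    susceptibility G p x = ∑' y, twoPoint G p x y := by
  unfold susceptibility
  simp only [encard_eq_tsum]
  rw [lintegral_tsum fun y =>
    (measurable_one.indicator (measurableSet_reachable x y)).aemeasurable]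
  refine tsum_congr fun y => ?_
  rw [lintegral_indicator_one (measurableSet_reachable x y)]
  rfl

/-- `E_p |K_x| ≤ χ_p`. -/
theorem susceptibility_le [G.LocallyFinite] (hG : G.Connected) (p : unitInterval)
    (hs : Sub G p) (x : V) : susceptibility G p x ≤ ENNReal.ofReal (chi G p) := by
  have : Countable V := countable_of_connected G hG
  rw [susceptibility_eq, ENNReal.tsum_eq_iSup_sum]
  refine iSup_le fun Y => ?_
  have e : ∑ y ∈ Y, twoPoint G p x y = ENNReal.ofReal (∑ y ∈ Y, tau G p x y) := by
    rw [ENNReal.ofReal_sum_of_nonneg fun y _ => by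
      rw [← twoPoint_eq G hG]; exact ENNReal.toReal_nonneg]
    refine Finset.sum_congr rfl fun y _ => ?_
    rw [← twoPoint_eq G hG, ENNReal.ofReal_toReal (twoPoint_ne_top _ _ _ _)]
  rw [e]
  refine ENNReal.ofReal_le_ofReal ?_
  refine sum_EV_le p.2.1 p.2.2 Y (fun y => con x y)
    (fun y _ => Vale.Agent.P151.con_mono x y) (fun y _ S => Vale.Agent.P151.con_le_one x y S)
    (fun F => ?_)
  rw [Vale.Agent.P151.Ex_sum]
  refine (le_of_eq (Finset.sum_congr rfl fun y _ => Ex_con_symm _ _ x y)).trans ?_
  exact ek_sum_con_le p.2.1 p.2.2 hs F Y x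

/-- The converse: `χ_p ≤ sup_x E_p |K_x|`. -/
theorem vol_le_susceptibility [G.LocallyFinite] (hG : G.Connected) (p : unitInterval)
    (x : V) (F : Finset V) : ENNReal.ofReal (vol G p (x, F)) ≤ susceptibility G p x := by
  have : Countable V := countable_of_connected G hG
  rw [susceptibility_eq]
  have hU : ∀ e ∈ edgesIn G F, ∀ v ∈ e, v ∈ insert x F := fun e he v hv =>
    Finset.mem_insert_of_mem ((Vale.Agent.P151.mem_edgesIn.1 he).2 v hv)
  have e : vol G p (x, F) = ∑ y ∈ insert x F, Ex (p : ℝ) (edgesIn G F) (con x y) := by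
    unfold vol
    rw [← Vale.Agent.P151.Ex_sum]
    refine Vale.Agent.P151.Ex_congr _ fun S hS => ?_
    rw [csz_eq_sum (U := insert x F) (fun e he => hU e (hS he)) (Finset.mem_insert_self x F)]
    exact Finset.sum_congr rfl fun y _ => (con_eq_ind x y S).symm
  rw [e, ENNReal.ofReal_sum_of_nonneg fun y _ => mg_Ex_con_nonneg p.2.1 p.2.2 _ x y]
  refine le_trans (Finset.sum_le_sum fun y _ => ?_) (ENNReal.sum_le_tsum (insert x F))
  rw [ENNReal.ofReal_le_iff_le_toReal (twoPoint_ne_top _ _ _ _)]
  exact Ex_con_le G p x y F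

theorem chi_le_iSup [G.LocallyFinite] (hG : G.Connected) (p : unitInterval) :
    ENNReal.ofReal (chi G p) ≤ ⨆ x, susceptibility G p x := by
  have hne : Nonempty V := hG.nonempty
  by_cases htop : (⨆ x, susceptibility G p x) = ⊤
  · rw [htop]; exact le_top
  · rw [ENNReal.ofReal_le_iff_le_toReal htop]
    unfold chi
    refine ciSup_le fun z => ?_
    rw [← ENNReal.ofReal_le_iff_le_toReal htop]
    exact (vol_le_susceptibility hG p z.1 z.2).trans (le_iSup (fun x => susceptibility G p x) z.1)

/-- No infinite cluster when the expected cluster size is finite. -/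
theorem measure_infC_eq_zero [G.LocallyFinite] (hG : G.Connected) (p : unitInterval)
    (hs : Sub G p) (x : V) : setBernoulli G.edgeSet p (InfC x) = 0 := by
  have : Countable V := countable_of_connected G hG
  have h1 : susceptibility G p x ≠ ⊤ :=
    ne_top_of_le_ne_top ENNReal.ofReal_ne_top (susceptibility_le hG p hs x)
  unfold susceptibility at h1
  have hm : Measurable fun ω : Set (Sym2 V) =>
      (({y | (SimpleGraph.fromEdgeSet ω).Reachable x y}.encard : ℕ∞) : ℝ≥0∞) := by
    simp only [encard_eq_tsum]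
    exact Measurable.tsum fun y => measurable_one.indicator (measurableSet_reachable x y)
  have h2 := ae_lt_top hm h1
  rw [ae_iff] at h2
  refine measure_mono_null ?_ h2
  intro ω hω
  have h3 : {y | (SimpleGraph.fromEdgeSet ω).Reachable x y}.encard = ⊤ :=
    Set.encard_eq_top_iff.2 hω
  change ¬ (({y | (SimpleGraph.fromEdgeSet ω).Reachable x y}.encard : ℕ∞) : ℝ≥0∞) < ⊤
  rw [h3]
  simp

theorem le_pc_of_sub [G.LocallyFinite] [Infinite V] (hG : G.Connected) {p : ℝ}
    (h1 : p ≤ 1) (hs : Sub G p) : p ≤ pc G := by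
  have : Countable V := countable_of_connected G hG
  have h01 : (1 : ℝ) ∈ Set.Icc (0 : ℝ) 1 := ⟨by norm_num, le_rfl⟩
  unfold pc
  refine le_csInf ⟨1, h01, ?_⟩ ?_
  · refine lt_of_lt_of_le ?_ (measure_mono
      (s := {ω | numInfiniteClusters ω = 1}) fun ω hω => ?_)
    · rw [mg_setBer_one hG h01]
      exact zero_lt_one
    · have hω' : numInfiniteClusters ω = 1 := hω
      exact hω'.ge
  · rintro q ⟨hq, hpos⟩
    by_contra hlt
    rw [not_le] at hlt
    have hsq : Sub G q := Sub.mono hq.1 hlt.le h1 hs
    have h2 : setBernoulli G.edgeSet (⟨q, hq⟩ : unitInterval) {ω | 1 ≤ numInfiniteClusters ω} ≤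
        setBernoulli G.edgeSet (⟨q, hq⟩ : unitInterval) (⋃ x, InfC x) := by
      refine measure_mono fun ω hω => ?_
      obtain ⟨x, hx⟩ := exists_supp_infinite_of_one_le (ω := ω) hω
      exact Set.mem_iUnion.2 ⟨x, hx⟩
    have h3 : setBernoulli G.edgeSet (⟨q, hq⟩ : unitInterval) (⋃ x, InfC x) = 0 :=
      measure_iUnion_null fun x => measure_infC_eq_zero hG ⟨q, hq⟩ hsq x
    rw [h3] at h2
    exact absurd hpos (not_lt.2 h2)

/-- Extension of the finiteness of the susceptibility to larger parameters. -/
theorem sub_extend [G.LocallyFinite] [Nonempty V] {d : ℕ} (hd : ∀ x, G.degree x ≤ d)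
    {p p' : ℝ} (h0 : 0 ≤ p) (hpp : p ≤ p') (hp1 : p < 1) (h1 : p' ≤ 1) (hs : Sub G p)
    (hh : (p' - p) / (1 - p) * d * chi G p ≤ 1 / 2) : Sub G p' := by
  classical
  have h0' : 0 ≤ p' := h0.trans hpp
  have h1p : 0 < 1 - p := by linarith only [hp1]
  set s := (p' - p) / (1 - p) with hsdef
  have hs0 : 0 ≤ s := div_nonneg (by linarith only [hpp]) h1p.le
  have hchi : 1 ≤ chi G p := one_le_chi h0 hp1.le hs
  have key : ∀ (F : Finset V), ∀ x ∈ F,
      ∑ y ∈ F, Ex p' (edgesIn G F) (con x y) ≤ 2 * chi G p := by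
    intro F x hx
    set A : V → ℝ := fun b => ∑ y ∈ F, Ex p' (edgesIn G F) (con b y) with hA
    obtain ⟨m, hm, hmax⟩ := F.exists_max_image A ⟨x, hx⟩
    have hA0 : ∀ b, 0 ≤ A b := fun b =>
      Finset.sum_nonneg fun y _ => mg_Ex_con_nonneg h0' h1 _ b y
    have h2 : A m ≤ chi G p + s * (chi G p * (d * A m)) := by
      calc A m ≤ ∑ y ∈ F, (Ex p (edgesIn G F) (con m y) +
            s * ∑ a ∈ F, ∑ b ∈ F ∩ G.neighborFinset a,
              Ex p (edgesIn G F) (con m a) * Ex p' (edgesIn G F) (con b y)) :=
            Finset.sum_le_sum fun y hy => tau_step h0 hpp hp1 h1 F m y hm hy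
        _ = ∑ y ∈ F, Ex p (edgesIn G F) (con m y) +
            s * ∑ a ∈ F, Ex p (edgesIn G F) (con m a) * ∑ b ∈ F ∩ G.neighborFinset a, A b := by
            rw [Finset.sum_add_distrib, ← Finset.mul_sum, Finset.sum_comm]
            congr 2
            refine Finset.sum_congr rfl fun a _ => ?_
            rw [Finset.sum_comm, Finset.mul_sum]
            refine Finset.sum_congr rfl fun b _ => ?_
            rw [hA]
            simp only
            rw [Finset.mul_sum]
        _ ≤ chi G p + s * (chi G p * (d * A m)) := by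
            have h3 : ∑ y ∈ F, Ex p (edgesIn G F) (con m y) ≤ chi G p :=
              (le_of_eq (Finset.sum_congr rfl fun y _ => Ex_con_symm _ _ m y)).trans
                (ek_sum_con_le h0 hp1.le hs F F m)
            refine add_le_add h3 (mul_le_mul_of_nonneg_left ?_ hs0)
            calc ∑ a ∈ F, Ex p (edgesIn G F) (con m a) * ∑ b ∈ F ∩ G.neighborFinset a, A b
                ≤ ∑ a ∈ F, Ex p (edgesIn G F) (con m a) * (d * A m) := by
                  refine Finset.sum_le_sum fun a _ => mul_le_mul_of_nonneg_left ?_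
                    (mg_Ex_con_nonneg h0 hp1.le _ m a)
                  calc ∑ b ∈ F ∩ G.neighborFinset a, A b
                      ≤ ∑ _b ∈ F ∩ G.neighborFinset a, A m :=
                        Finset.sum_le_sum fun b hb => hmax b (Finset.mem_of_mem_inter_left hb)
                    _ = ((F ∩ G.neighborFinset a).card : ℝ) * A m := by
                        rw [Finset.sum_const, nsmul_eq_mul]
                    _ ≤ d * A m := by
                        refine mul_le_mul_of_nonneg_right ?_ (hA0 m)
                        have h4 : (F ∩ G.neighborFinset a).card ≤ G.degree a := by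
                          rw [← G.card_neighborFinset_eq_degree]
                          exact Finset.card_le_card Finset.inter_subset_right
                        exact_mod_cast h4.trans (hd a)
              _ = (∑ a ∈ F, Ex p (edgesIn G F) (con m a)) * (d * A m) := by
                  rw [Finset.sum_mul]
              _ ≤ chi G p * (d * A m) :=
                  mul_le_mul_of_nonneg_right h3 (mul_nonneg (Nat.cast_nonneg _) (hA0 m))
    have h3 : s * (chi G p * (d * A m)) ≤ 1 / 2 * A m := by
      calc s * (chi G p * (d * A m)) = (s * d * chi G p) * A m := by ring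
        _ ≤ _ := mul_le_mul_of_nonneg_right hh (hA0 m)
    have h4 : A m ≤ 2 * chi G p := by linarith only [h2, h3]
    exact (hmax x hx).trans h4
  refine ⟨2 * chi G p, ?_⟩
  rintro _ ⟨⟨x, F⟩, rfl⟩
  have h3 : vol G p' (x, F) ≤ vol G p' (x, insert x F) :=
    Vale.Agent.P151.Ex_edgesIn_mono h0' h1 (csz_cast_mono x) (subset_insert x F)
  refine h3.trans ?_
  have e : vol G p' (x, insert x F) =
      ∑ y ∈ insert x F, Ex p' (edgesIn G (insert x F)) (con x y) := by
    unfold vol
    rw [← Vale.Agent.P151.Ex_sum]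
    refine Vale.Agent.P151.Ex_congr _ fun S hS => ?_
    rw [csz_eq_sum (U := insert x F)
      (fun e he => (Vale.Agent.P151.mem_edgesIn.1 (hS he)).2) (Finset.mem_insert_self x F)]
    exact Finset.sum_congr rfl fun y _ => (con_eq_ind x y S).symm
  rw [e]
  exact key (insert x F) x (mem_insert_self x F)

/-- The mean-field lower bound `χ_q ≥ (1 - p_c) / (2 d (p_c - q))`. -/
theorem chi_ge [G.LocallyFinite] [Infinite V] (hG : G.Connected) {d : ℕ} (hd1 : 1 ≤ d)
    (hd : ∀ x, G.degree x ≤ d) (hpc1 : pc G < 1) {q : ℝ} (h0 : 0 ≤ q) (hq : q < pc G)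
    (hs : Sub G q) : (1 - pc G) / (2 * d) / (pc G - q) ≤ chi G q := by
  have hne : Nonempty V := hG.nonempty
  have hq1 : q < 1 := hq.trans hpc1
  have hX := one_le_chi h0 hq1.le hs
  have hd1' : (1 : ℝ) ≤ d := by exact_mod_cast hd1
  have hX0 : 0 < chi G q := by linarith only [hX]
  set δ := (1 - q) / (2 * d * chi G q) with hδ
  have hp : 0 < 2 * d * chi G q := by positivity
  have hp2 : 1 ≤ 2 * d * chi G q := by nlinarith only [hd1', hX]
  have h1q : 0 < 1 - q := by linarith only [hq1]
  have hδ0 : 0 ≤ δ := div_nonneg h1q.le hp.le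
  have hδ1 : δ ≤ 1 - q := div_le_self h1q.le hp2
  have h2 : Sub G (q + δ) := by
    refine sub_extend hd h0 (by linarith only [hδ0]) hq1 (by linarith only [hδ1]) hs ?_
    rw [add_sub_cancel_left, hδ]
    have : (1 - q) / (2 * d * chi G q) / (1 - q) * d * chi G q = 1 / 2 := by
      field_simp
    exact this.le
  have h3 := le_pc_of_sub hG (by linarith only [hδ1]) h2
  have h4 : δ ≤ pc G - q := by linarith only [h3]
  have hpq : 0 < pc G - q := by linarith only [hq]
  rw [div_div, div_le_iff₀ (by positivity)]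
  have h5 : 1 - q ≤ (pc G - q) * (2 * d * chi G q) := by
    rw [hδ, div_le_iff₀ hp] at h4
    exact h4
  linarith only [h5, hq]

end Vale.Agent.P165.H794
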