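import Vale.Agent.P165.H794.Core
import Vale.Agent.P165.H794.Suscept

/-!
# `L²` boundedness and mean-field behaviour on nonamenable quasi-transitive graphs
-/

open Finset MeasureTheory ProbabilityTheory
open scoped ENNReal

set_option linter.unusedSectionVars false

namespace Vale.Agent.P165

/-- The conclusion of the main theorem. -/
def L2Conclusion.{u} {V : Type u} (G : SimpleGraph V) : Prop :=
  (0 < pc G ∧ pc G < pTwoTwo G ∧ pTwoTwo G ≤ pu G) ∧
  (∃ p₁ M : ℝ, pc G < p₁ ∧ ∀ p : unitInterval, (p : ℝ) ≤ p₁ →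
    NormTwoLe G p M ∧ ∀ x, triangle G p x ≤ ENNReal.ofReal (M ^ 3)) ∧
  ∃ c C : ℝ, 0 < c ∧ 0 < C ∧ ∀ p : unitInterval, (p : ℝ) < pc G → ∀ x,
    ENNReal.ofReal (c / (pc G - p)) ≤ susceptibility G p x ∧
    susceptibility G p x ≤ ENNReal.ofReal (C / (pc G - p))

end Vale.Agent.P165

namespace Vale.Agent.P165.H794

open Vale.Agent.P151 (Ex Cn cl csz edgesIn EV con tau)
open Vale.Agent.P165.LF Vale.Agent.P165.BS Vale.Agent.P165.BS2

section main

variable {V : Type} [DecidableEq V] {G : SimpleGraph V}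

theorem sub_zero [Nonempty V] : Sub G 0 := by
  refine ⟨1, ?_⟩
  rintro _ ⟨⟨x, F⟩, rfl⟩
  change Ex 0 (edgesIn G F) (fun S => (csz S x : ℝ)) ≤ 1
  rw [mg_Ex_zero]
  have h : csz (∅ : Finset (Sym2 V)) x = 1 := by
    have h1 : cl (∅ : Finset (Sym2 V)) x = {x} := by
      ext y
      rw [Vale.Agent.P151.mem_cl, Finset.mem_singleton, mg_Cn_empty_iff]
      exact eq_comm
    unfold Vale.Agent.P151.csz
    rw [h1, Finset.card_singleton]
  rw [h]
  norm_num

theorem pc_pos [G.LocallyFinite] [Infinite V] (hG : G.Connected) (hqt : IsQuasiTransitive G) :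
    0 < pc G := by
  have hne : Nonempty V := hG.nonempty
  obtain ⟨d, hd1, hd⟩ := LF.exists_degree_bound (G := G) hqt
  have hd1' : (1 : ℝ) ≤ d := by exact_mod_cast hd1
  have hs : Sub G 0 := sub_zero
  have hX := one_le_chi le_rfl zero_le_one hs
  have hp : 0 < 2 * d * chi G 0 := by positivity
  have hp2 : 1 ≤ 2 * d * chi G 0 := by nlinarith only [hd1', hX]
  have h1 : 1 / (2 * d * chi G 0) ≤ 1 := by rw [div_le_one hp]; exact hp2
  have h2 : Sub G (1 / (2 * d * chi G 0)) := by
    refine sub_extend hd le_rfl (by positivity) zero_lt_one h1 hs ?_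
    have : (1 / (2 * d * chi G 0) - 0) / (1 - 0) * d * chi G 0 = 1 / 2 := by
      field_simp
      ring
    exact this.le
  exact lt_of_lt_of_le (by positivity) (le_pc_of_sub hG h1 h2)

theorem main [G.LocallyFinite] [Infinite V] (hG : G.Connected) (hqt : IsQuasiTransitive G)
    (hna : 0 < vertexCheeger G) : L2Conclusion G := by
  have hne : Nonempty V := hG.nonempty
  have hpc0 := pc_pos (G := G) hG hqt
  have hlt : pc G < pTwoTwo G := pc_lt_of_nonamenable hG hqt hna
    fun p N h0 h1 hL => le_pTwoTwo hG h0 h1 hL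
  have hle := pTwoTwo_le_pu (G := G) hG hqt
  obtain ⟨p₁, N, hp₁, h10, h11, hL⟩ := exists_L2B_of_lt hG hlt
  have hpc1 : pc G < 1 := hp₁.trans_le h11
  obtain ⟨d, hd1, hd⟩ := LF.exists_degree_bound (G := G) hqt
  have hd1' : (1 : ℝ) ≤ d := by exact_mod_cast hd1
  have hN0 : 0 < N := by
    have h2 := one_le_of_normTwoLe (normTwoLe_of_L2B hG ⟨p₁, h10, h11⟩ hL)
    linarith only [h2]
  refine ⟨⟨hpc0, hlt, hle⟩, ⟨p₁, N, hp₁, fun p hp => ?_⟩, ?_⟩
  · have h2 : NormTwoLe G p N := normTwoLe_of_L2B hG p (hL.mg_mono p.2.1 hp h11)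
    exact ⟨h2, fun x => triangle_le h2 x⟩
  · obtain ⟨C, hC0, hC⟩ := chi_le_of_L2B hG hqt hpc0 hpc1.le hN0 fun q h0 hq =>
      hL.mg_mono h0 (hq.le.trans hp₁.le) h11
    set p2 := pc G / 2 with hp2
    have hp20 : 0 < p2 := by linarith only [hpc0, hp2]
    have hp2c : p2 < pc G := by linarith only [hpc0, hp2]
    obtain ⟨c0, hc0, hcomp⟩ := chi_comp G hG hqt hp20 (hp2c.le.trans hpc1.le)
    have h1pc : 0 < 1 - pc G := by linarith only [hpc1]
    refine ⟨min (c0 * ((1 - pc G) / (2 * d))) p2, C, lt_min (by positivity) hp20, hC0,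
      fun p hp x => ?_⟩
    have hs : Sub G p := sub_of_lt_pc hG hqt p.2.1 hp p.2.2
    have hd0 : 0 < pc G - p := by linarith only [hp]
    constructor
    · rcases le_total p2 (p : ℝ) with h | h
      · have h1 : min (c0 * ((1 - pc G) / (2 * d))) p2 / (pc G - p) ≤ c0 * chi G p := by
          refine (div_le_div_of_nonneg_right (min_le_left _ _) hd0.le).trans ?_
          rw [mul_div_assoc]
          exact mul_le_mul_of_nonneg_left (chi_ge hG hd1 hd hpc1 p.2.1 hp hs) hc0.le
        have h2 := h1.trans (hcomp p h p.2.2 hs x)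
        have htop : susceptibility G p x ≠ ⊤ :=
          ne_top_of_le_ne_top ENNReal.ofReal_ne_top (susceptibility_le hG p hs x)
        rw [ENNReal.ofReal_le_iff_le_toReal htop]
        refine h2.trans (ciSup_le fun F => ?_)
        rw [← ENNReal.ofReal_le_iff_le_toReal htop]
        exact vol_le_susceptibility hG p x F
      · have h1 : min (c0 * ((1 - pc G) / (2 * d))) p2 / (pc G - p) ≤ vol G p (x, ∅) := by
          refine (div_le_div_of_nonneg_right (min_le_right _ _) hd0.le).trans ?_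
          have h3 : p2 / (pc G - p) ≤ 1 := by
            rw [div_le_one hd0]
            linarith only [h, hp2]
          refine h3.trans ?_
          have h2 := Vale.Agent.P151.Ex_mono p.2.1 p.2.2 (Λ := edgesIn G (∅ : Finset V))
            (F := fun _ => (1 : ℝ)) (G := fun S => (csz S x : ℝ)) (fun S _ => by
              have h3 : 1 ≤ csz S x := Vale.Agent.P151.csz_pos S x
              exact_mod_cast h3)
          rwa [Vale.Agent.P151.Ex_const] at h2
        exact (ENNReal.ofReal_le_ofReal h1).trans (vol_le_susceptibility hG p x ∅)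
    · refine (susceptibility_le hG p hs x).trans ?_
      exact ENNReal.ofReal_le_ofReal (hC p p.2.1 hp)

end main

/-! ### Transport along a graph isomorphism -/

section iso

universe u v

variable {V : Type u} {W : Type v} {G : SimpleGraph V} {H : SimpleGraph W}

theorem twoPoint_iso (φ : G ≃g H) (p : unitInterval) (x y : V) :
    twoPoint H p (φ x) (φ y) = twoPoint G p x y := by
  have h := setBernoulli_map_equiv G.edgeSet H.edgeSet p (sym2Equiv' φ.toEquiv) (fun e => by
    induction e using Sym2.ind with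
    | _ x y =>
      change s(φ x, φ y) ∈ H.edgeSet ↔ s(x, y) ∈ G.edgeSet
      rw [SimpleGraph.mem_edgeSet, SimpleGraph.mem_edgeSet]
      exact φ.map_rel_iff)
  unfold twoPoint
  rw [← h, MeasurableEquiv.map_apply]
  congr 1
  ext ω
  change (SimpleGraph.fromEdgeSet ((sym2Equiv' φ.toEquiv) '' ω)).Reachable (φ x) (φ y) ↔
    (SimpleGraph.fromEdgeSet ω).Reachable x y
  exact (openIso φ.toEquiv ω).reachable_iff

theorem normTwoLe_iso (φ : G ≃g H) {p : unitInterval} {M : ℝ} (h : NormTwoLe G p M) :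
    NormTwoLe H p M := by
  classical
  intro F f g
  have h2 := h (F.map φ.symm.toEquiv.toEmbedding) (fun x => f (φ x)) (fun x => g (φ x))
  simp only [Finset.sum_map] at h2
  have e : ∀ x, φ (φ.symm.toEquiv.toEmbedding x) = x := fun x => φ.apply_symm_apply x
  have e2 : ∀ x y, twoPoint G p (φ.symm.toEquiv.toEmbedding x) (φ.symm.toEquiv.toEmbedding y) =
      twoPoint H p x y := fun x y => by
    rw [← twoPoint_iso φ, e, e]
  simp only [e, e2] at h2
  exact h2

theorem pTwoTwo_iso (φ : G ≃g H) : pTwoTwo H = pTwoTwo G := by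
  unfold pTwoTwo
  congr 1
  ext p
  constructor
  · rintro ⟨h, M, hM⟩
    exact ⟨h, M, normTwoLe_iso φ.symm hM⟩
  · rintro ⟨h, M, hM⟩
    exact ⟨h, M, normTwoLe_iso φ hM⟩

theorem triangle_iso (φ : G ≃g H) (p : unitInterval) (x : V) :
    triangle H p (φ x) = triangle G p x := by
  unfold triangle
  rw [← φ.toEquiv.tsum_eq]
  refine tsum_congr fun y => ?_
  rw [← φ.toEquiv.tsum_eq]
  refine tsum_congr fun z => ?_
  have e : ∀ a b, twoPoint H p (φ.toEquiv a) (φ.toEquiv b) = twoPoint G p a b :=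
    fun a b => twoPoint_iso φ p a b
  have e1 : twoPoint H p (φ x) (φ.toEquiv y) = twoPoint G p x y := twoPoint_iso φ p x y
  have e2 : twoPoint H p (φ.toEquiv z) (φ x) = twoPoint G p z x := twoPoint_iso φ p z x
  rw [e, e1, e2]

theorem susceptibility_iso (φ : G ≃g H) (p : unitInterval) (x : V) :
    susceptibility H p (φ x) = susceptibility G p x := by
  have h := setBernoulli_map_equiv G.edgeSet H.edgeSet p (sym2Equiv' φ.toEquiv) (fun e => by
    induction e using Sym2.ind with
    | _ x y =>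
      change s(φ x, φ y) ∈ H.edgeSet ↔ s(x, y) ∈ G.edgeSet
      rw [SimpleGraph.mem_edgeSet, SimpleGraph.mem_edgeSet]
      exact φ.map_rel_iff)
  unfold susceptibility
  rw [← h, lintegral_map_equiv]
  refine lintegral_congr fun ω => ?_
  congr 1
  have e : {y | (SimpleGraph.fromEdgeSet ((setEquiv (sym2Equiv' φ.toEquiv)) ω)).Reachable (φ x) y} =
      φ '' {y | (SimpleGraph.fromEdgeSet ω).Reachable x y} := by
    ext y
    constructor
    · intro hy
      refine ⟨φ.symm y, ?_, φ.apply_symm_apply y⟩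
      have h1 : (SimpleGraph.fromEdgeSet ((sym2Equiv' φ.toEquiv) '' ω)).Reachable (φ x)
          (φ (φ.symm y)) := by
        rw [φ.apply_symm_apply]
        exact hy
      exact (openIso φ.toEquiv ω).reachable_iff.1 h1
    · rintro ⟨z, hz, rfl⟩
      exact (openIso φ.toEquiv ω).reachable_iff.2 hz
  rw [e]
  exact φ.injective.encard_image _

theorem L2Conclusion_iso (φ : G ≃g H) (h : L2Conclusion H) : L2Conclusion G := by
  obtain ⟨⟨h0, h1, h2⟩, ⟨p₁, M, hp, h3⟩, c, C, hc, hC, h4⟩ := h
  rw [pc_iso φ] at h0 h1 hp h4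
  rw [pTwoTwo_iso φ] at h1 h2
  rw [pu_iso φ] at h2
  refine ⟨⟨h0, h1, h2⟩, ⟨p₁, M, hp, fun p hp1 => ?_⟩, c, C, hc, hC, fun p hp1 x => ?_⟩
  · obtain ⟨h5, h6⟩ := h3 p hp1
    exact ⟨normTwoLe_iso φ.symm h5, fun x => by rw [← triangle_iso φ]; exact h6 (φ x)⟩
  · have h5 := h4 p hp1 (φ x)
    rw [susceptibility_iso φ] at h5
    exact h5

/-- The main theorem in every universe. -/
theorem main_universe [Infinite V] (G : SimpleGraph V) [G.LocallyFinite] (hG : G.Connected)
    (hqt : IsQuasiTransitive G) (hna : 0 < vertexCheeger G) : L2Conclusion G := by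
  have hc : Countable V := countable_of_connected G hG
  obtain ⟨e⟩ : Nonempty (V ≃ ℕ) := by
    have := nonempty_denumerable V
    obtain ⟨d⟩ := this
    exact ⟨d.eqv⟩
  let φ : G ≃g G.map e := SimpleGraph.Iso.map e G
  have hlf : (G.map e).LocallyFinite := fun x =>
    Fintype.ofEquiv _ ((φ.symm.mapNeighborSet x).symm)
  refine L2Conclusion_iso φ (main ?_ (isQuasiTransitive_iso φ hqt) ?_)
  · exact φ.connected_iff.1 hG
  · rw [vertexCheeger_iso φ]
    exact hna

end iso

end Vale.Agent.P165.H794
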